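import Vale.Agent.P088.R2.H551.V.All0
import Vale.Agent.P088.R2.H904.V.WS
import Vale.Agent.P088.R2.H341.V.JR3
import Vale.Agent.P088.R2.H712.RowITP

/-!
# P088, two arbitrary pairs near the flat one: rigidity, all rows plugged in
-/

noncomputable section

namespace Vale.Agent.P088.PJ

open Vale.Agent.P088.HY

theorem cWS : RowWS := H904.rowWS cSOLG H833.rowHC

theorem cWD : RowWD := H901.rowWD HY.rowINPG cWS

theorem cOV : RowOV := H338.rowOV (HY.rowORTG HY.rowINPG)

theorem cKEY : RowKEY :=
  H359.rowKEY rowBI (H605.rowKLA H311.rowEX) rowKLB rowKLI cWD cOV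

theorem cJR : RowJR := H341.rowJR cKEY cGE (H935.rowQB rowBI) rowITP

/-- **Joint rigidity of two arbitrary pairs (metric, connection) near the flat one.** -/
theorem rowRG : RowRG := H593.rg_of_cg (H238.rowCG cJR H43.rowPEQ)

end Vale.Agent.P088.PJ
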