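import Vale.Agent.P088.R2.H794.RowLog
import Vale.Agent.P088.R2.H16.Estg
import Vale.Agent.P088.R2.H961.G.Top
import Vale.Agent.P088.R2.H820.SolG
import Vale.Agent.P088.R2.H901.VecP
import Vale.Agent.P088.R2.H901.WD
import Vale.Agent.P088.R2.H948.G.Row
import Vale.Agent.P088.R2.H870.BI
import Vale.Agent.P088.R2.H311.V.Ex2
import Vale.Agent.P088.R2.H833.V.Hc
import Vale.Agent.P088.R2.H338.V.OV
import Vale.Agent.P088.R2.H605.V.Kla
import Vale.Agent.P088.R2.H696.V.KlbR
import Vale.Agent.P088.R2.H87.V.KLI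
import Vale.Agent.P088.R2.H359.RowKey
import Vale.Agent.P088.R2.H644.QW
import Vale.Agent.P088.R2.H935.V.QB
import Vale.Agent.P088.R2.H561.V.MeFin
import Vale.Agent.P088.R2.H960.DV
import Vale.Agent.P088.R2.H437.Ne
import Vale.Agent.P088.R2.H437.Ko
import Vale.Agent.P088.R2.H341.V.GE3
import Vale.Agent.P088.R2.H43.Peq
import Vale.Agent.P088.R2.H238.V.CG
import Vale.Agent.P088.R2.H593.V.RGAll

/-!
# P088, two arbitrary pairs near the flat one: the rows are put together
-/

noncomputable section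

namespace Vale.Agent.P088.PJ

open Vale.Agent.P088.HY

/-- The basic estimate, strong form. -/
theorem cEST : HY.H16.RowESTs :=
  HY.H16.rowESTs rowEID (rowEQB rowEBD) (H856.rowEQC rowEBD) (rowEQX rowEBD) rowEGAP rowEOS
    (rowEN1 rowEOS) (rowEN2 rowEGAP rowEIK (rowEQB rowEBD))

/-- Solvability of the overdetermined system. -/
theorem cSOLG : HY.RowSOLG :=
  R2.H820.rowSOLG (HY.H16.rowESTG cEST rowEGAP) R2.H961.rowTOPG rowHYP

theorem cQW : RowQW := Vale.Agent.P088.R2.H644.rowQW rowBI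

theorem cME : RowME := H561.rowME cQW

theorem cDV : RowDV := rowDV cQW cME

theorem cGE : RowGE := H341.rowGE cME cDV (H437.rowNE HY.H794.rowDIR) H437.rowKO

end Vale.Agent.P088.PJ
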